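import Mathlib

/-!
A universal upper bound for the Gaussian propeller functional: for all finite dimensional Euclidean
spaces and all families of disjoint measurable cells, the sum of the squared norms of the Gaussian
first moments is at most `81/200`. For one cell of mass `m` and the direction `u` of its moment,
`∫_A ⟪u, x⟫ ≤ t m + E (g - t)₊` for all `t`, and for small `m` Cauchy-Schwarz with an exponential
moment. This gives `|z(A)|² ≤ (81/200) m`, and the masses sum to at most one.
-/

open MeasureTheory ProbabilityTheory Set Filter Topology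
open scoped NNReal

namespace Vale.Agent.Results.P226.GaussianBathtub

noncomputable section

/-- The polynomial majorant of the exponential on the negative half line. -/
lemma exp_neg_le (y : ℝ) (hy : 0 ≤ y) :
    Real.exp (-y) ≤ 1 - y + y ^ 2 / 2 - y ^ 3 / 6 + y ^ 4 / 24 := by
  have hT : 1 + y + y ^ 2 / 2 + y ^ 3 / 6 + y ^ 4 / 24 ≤ Real.exp y := by
    have h := Real.sum_le_exp_of_nonneg hy 5
    simp only [Finset.sum_range_succ, Finset.sum_range_zero, Nat.factorial] at h
    norm_num at h
    linarith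
  have hTpos : 0 < 1 + y + y ^ 2 / 2 + y ^ 3 / 6 + y ^ 4 / 24 := by positivity
  rw [Real.exp_neg]
  have h1 := inv_anti₀ hTpos hT
  refine h1.trans ?_
  rw [inv_le_iff_one_le_mul₀ hTpos]
  have : (1 - y + y ^ 2 / 2 - y ^ 3 / 6 + y ^ 4 / 24) * (1 + y + y ^ 2 / 2 + y ^ 3 / 6 + y ^ 4 / 24)
      = 1 + y ^ 6 / 72 + y ^ 8 / 576 := by ring
  rw [this]
  have : 0 ≤ y ^ 6 / 72 + y ^ 8 / 576 := by positivity
  linarith

/-- The Gaussian weight. -/
def ew (x : ℝ) : ℝ := Real.exp (-(1 / 2) * x ^ 2)

lemma ew_le (x : ℝ) : ew x ≤ 1 - x ^ 2 / 2 + x ^ 4 / 8 - x ^ 6 / 48 + x ^ 8 / 384 := by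
  have h := exp_neg_le (x ^ 2 / 2) (by positivity)
  have e : ew x = Real.exp (-(x ^ 2 / 2)) := by
    unfold ew
    congr 1
    ring
  rw [e]
  refine h.trans (le_of_eq ?_)
  ring

lemma continuous_ew : Continuous ew := by
  unfold ew
  fun_prop

/-- The integral of the Gaussian weight over an initial segment. -/
lemma integral_ew_le (t : ℝ) (ht : 0 ≤ t) :
    ∫ x in (0 : ℝ)..t, ew x ≤ t - t ^ 3 / 6 + t ^ 5 / 40 - t ^ 7 / 336 + t ^ 9 / 3456 := by
  have h1 : ∫ x in (0 : ℝ)..t, ew x ≤
      ∫ x in (0 : ℝ)..t, (1 - x ^ 2 / 2 + x ^ 4 / 8 - x ^ 6 / 48 + x ^ 8 / 384) := by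
    apply intervalIntegral.integral_mono_on ht
    · exact continuous_ew.intervalIntegrable _ _
    · exact Continuous.intervalIntegrable (by fun_prop) _ _
    · intro x _
      exact ew_le x
  refine h1.trans (le_of_eq ?_)
  have h2 : ∀ x ∈ Set.uIcc (0 : ℝ) t,
      HasDerivAt (fun x : ℝ => x - x ^ 3 / 6 + x ^ 5 / 40 - x ^ 7 / 336 + x ^ 9 / 3456)
        (1 - x ^ 2 / 2 + x ^ 4 / 8 - x ^ 6 / 48 + x ^ 8 / 384) x := by
    intro x _
    have h1 := hasDerivAt_id' x
    have h3 := (hasDerivAt_pow 3 x).div_const 6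
    have h5 := (hasDerivAt_pow 5 x).div_const 40
    have h7 := (hasDerivAt_pow 7 x).div_const 336
    have h9 := (hasDerivAt_pow 9 x).div_const 3456
    have := ((((h1.fun_sub h3).fun_add h5).fun_sub h7).fun_add h9)
    refine this.congr_deriv ?_
    norm_num
    ring
  rw [intervalIntegral.integral_eq_sub_of_hasDerivAt h2
    (Continuous.intervalIntegrable (by fun_prop) _ _)]
  ring

lemma integrable_ew : Integrable ew := by
  have := integrable_exp_neg_mul_sq (b := 1 / 2) (by norm_num)
  exact this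

lemma integrable_mul_ew : Integrable (fun x : ℝ => x * ew x) := by
  have := integrable_mul_exp_neg_mul_sq (b := 1 / 2) (by norm_num)
  exact this

lemma hasDerivAt_ew (x : ℝ) : HasDerivAt (fun y => - ew y) (x * ew x) x := by
  unfold ew
  have h1 : HasDerivAt (fun y : ℝ => -(1 / 2) * y ^ 2) (-(1 / 2) * (2 * x)) x := by
    have := ((hasDerivAt_id x).pow 2).const_mul (-(1 / 2) : ℝ)
    simpa using this
  have h2 : HasDerivAt (fun y : ℝ => -Real.exp (-(1 / 2) * y ^ 2))
      (-(Real.exp (-(1 / 2) * x ^ 2) * (-(1 / 2) * (2 * x)))) x := (h1.exp).neg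
  convert h2 using 1
  ring

lemma tendsto_ew : Tendsto (fun y => - ew y) atTop (𝓝 0) := by
  have h1 : Tendsto (fun y : ℝ => -(1 / 2) * y ^ 2) atTop atBot := by
    have h := tendsto_pow_atTop (α := ℝ) (n := 2) (by norm_num)
    exact (h.const_mul_atTop_of_neg (by norm_num : (-(1 / 2) : ℝ) < 0))
  have h2 := Real.tendsto_exp_atBot.comp h1
  have h3 := h2.neg
  simpa [ew, Function.comp_def] using h3

lemma integral_Ioi_mul_ew (t : ℝ) : ∫ x in Ioi t, x * ew x = ew t := by
  have h := integral_Ioi_of_hasDerivAt_of_tendsto' (a := t) (f := fun y => - ew y)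
    (f' := fun x => x * ew x) (m := 0) (fun x _ => hasDerivAt_ew x)
    integrable_mul_ew.integrableOn tendsto_ew
  rw [h]
  ring

lemma integral_Ioi_ew (t : ℝ) (ht : 0 ≤ t) :
    ∫ x in Ioi t, ew x = √(2 * Real.pi) / 2 - ∫ x in (0 : ℝ)..t, ew x := by
  have h0 : ∫ x in Ioi (0 : ℝ), ew x = √(2 * Real.pi) / 2 := by
    have := integral_gaussian_Ioi (1 / 2)
    have e : Real.pi / (1 / 2) = 2 * Real.pi := by ring
    rw [e] at this
    exact this
  have hu : Ioc (0 : ℝ) t ∪ Ioi t = Ioi 0 := Ioc_union_Ioi_eq_Ioi ht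
  have hd : Disjoint (Ioc (0 : ℝ) t) (Ioi t) := by
    rw [Set.disjoint_left]
    intro x hx hx'
    exact absurd hx.2 (not_le.mpr hx')
  have h1 := setIntegral_union (μ := volume) (f := ew) hd measurableSet_Ioi
    integrable_ew.integrableOn integrable_ew.integrableOn
  rw [hu, h0, ← intervalIntegral.integral_of_le ht] at h1
  rw [h1]
  ring

/-- The constant of the standard density. -/
def cg : ℝ := (√(2 * Real.pi))⁻¹

lemma cg_le : cg ≤ 50000 / 125331 := by
  unfold cg
  have h1 : (125331 / 50000 : ℝ) ≤ √(2 * Real.pi) := by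
    apply Real.le_sqrt_of_sq_le
    have := Real.pi_gt_d6
    norm_num
    linarith
  have := inv_anti₀ (by norm_num : (0 : ℝ) < 125331 / 50000) h1
  refine this.trans (le_of_eq ?_)
  norm_num

lemma cg_mul : cg * √(2 * Real.pi) = 1 := by
  unfold cg
  apply inv_mul_cancel₀
  have : 0 < √(2 * Real.pi) := Real.sqrt_pos.mpr (by positivity)
  exact this.ne'

lemma cg_nonneg : 0 ≤ cg := by
  unfold cg
  positivity

lemma pdf_eq (x : ℝ) : gaussianPDFReal 0 1 x = cg * ew x := by
  simp only [gaussianPDFReal, cg, ew]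
  norm_num
  left
  ring

/-- The function `(x - t)₊`. -/
def pt (t x : ℝ) : ℝ := max (x - t) 0

lemma measurable_pt (t : ℝ) : Measurable (pt t) := by
  unfold pt
  fun_prop

lemma integrable_id_gaussian : Integrable (fun x : ℝ => x) (gaussianReal 0 1) := by
  have := (memLp_id_gaussianReal (μ := 0) (v := 1) 1).integrable (by norm_num)
  exact this

lemma integrable_pt (t : ℝ) : Integrable (pt t) (gaussianReal 0 1) := by
  have h := (integrable_id_gaussian.sub (integrable_const t))
  exact h.sup (integrable_zero _ _ _)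

/-- The formula for the expected excess of a standard Gaussian. -/
lemma integral_pt_eq (t : ℝ) (ht : 0 ≤ t) :
    ∫ x, pt t x ∂(gaussianReal 0 1) =
      cg * ew t - t / 2 + t * (cg * ∫ x in (0 : ℝ)..t, ew x) := by
  rw [integral_gaussianReal_eq_integral_smul (one_ne_zero)]
  have e1 : ∀ x : ℝ, gaussianPDFReal 0 1 x • pt t x = cg * (ew x * pt t x) := by
    intro x
    rw [pdf_eq, smul_eq_mul]
    ring
  simp_rw [e1]
  rw [integral_const_mul]
  have e2 : ∫ x, ew x * pt t x = ∫ x in Ioi t, (x * ew x - t * ew x) := by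
    have h0 : ∀ x, x ∉ Ioi t → ew x * pt t x = 0 := by
      intro x hx
      have : x ≤ t := not_lt.mp hx
      have h3 : pt t x = 0 := by
        unfold pt
        exact max_eq_right (by linarith)
      rw [h3, mul_zero]
    rw [← setIntegral_eq_integral_of_forall_compl_eq_zero h0]
    apply setIntegral_congr_fun measurableSet_Ioi
    intro x hx
    have hx' : t < x := hx
    have h3 : pt t x = x - t := by
      unfold pt
      exact max_eq_left (by linarith)
    simp only [h3]
    ring
  rw [e2, integral_sub integrable_mul_ew.integrableOn (integrable_ew.const_mul t).integrableOn,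
    integral_const_mul, integral_Ioi_mul_ew, integral_Ioi_ew t ht]
  have h4 := cg_mul
  have : cg * (ew t - t * (√(2 * Real.pi) / 2 - ∫ x in (0 : ℝ)..t, ew x)) =
      cg * ew t - t / 2 * (cg * √(2 * Real.pi)) + t * (cg * ∫ x in (0 : ℝ)..t, ew x) := by ring
  rw [this, h4]
  ring

/-- The numerical bound for the expected excess. -/
def hb (t : ℝ) : ℝ :=
  (50000 / 125331) * ((1 - t ^ 2 / 2 + t ^ 4 / 8 - t ^ 6 / 48 + t ^ 8 / 384) +
    t * (t - t ^ 3 / 6 + t ^ 5 / 40 - t ^ 7 / 336 + t ^ 9 / 3456)) - t / 2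

lemma integral_pt_le (t : ℝ) (ht : 0 ≤ t) : ∫ x, pt t x ∂(gaussianReal 0 1) ≤ hb t := by
  rw [integral_pt_eq t ht]
  have h1 := ew_le t
  have h2 := integral_ew_le t ht
  have h3 : 0 ≤ ew t := (Real.exp_pos _).le
  have h4 : 0 ≤ ∫ x in (0 : ℝ)..t, ew x :=
    intervalIntegral.integral_nonneg ht (fun x _ => (Real.exp_pos _).le)
  have h5 := cg_le
  have h6 := cg_nonneg
  unfold hb
  have h7 : 0 ≤ 1 - t ^ 2 / 2 + t ^ 4 / 8 - t ^ 6 / 48 + t ^ 8 / 384 := h3.trans h1
  have h8 : 0 ≤ t - t ^ 3 / 6 + t ^ 5 / 40 - t ^ 7 / 336 + t ^ 9 / 3456 := h4.trans h2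
  have h9 : cg * ew t ≤ (50000 / 125331) * (1 - t ^ 2 / 2 + t ^ 4 / 8 - t ^ 6 / 48 + t ^ 8 / 384) :=
    mul_le_mul h5 h1 h3 (by norm_num)
  have h10 : cg * ∫ x in (0 : ℝ)..t, ew x ≤
      (50000 / 125331) * (t - t ^ 3 / 6 + t ^ 5 / 40 - t ^ 7 / 336 + t ^ 9 / 3456) :=
    mul_le_mul h5 h2 h4 (by norm_num)
  have h11 := mul_le_mul_of_nonneg_left h10 ht
  nlinarith [h9, h11]

/-- A pointwise bound for the square by an exponential moment. -/
lemma sq_le_exp (x : ℝ) : x ^ 2 ≤ 31 + (1 / 5) * (Real.exp x + Real.exp (-x) - 2) := by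
  have h1 : ∀ y : ℝ, 0 ≤ y → y ^ 4 / 24 ≤ Real.exp y := by
    intro y hy
    have := Real.pow_div_factorial_le_exp y hy 4
    simpa [Nat.factorial] using this
  have hp := Real.exp_pos x
  have hn := Real.exp_pos (-x)
  rcases le_total 0 x with hx | hx
  · have := h1 x hx
    nlinarith [sq_nonneg (x ^ 2 - 60)]
  · have := h1 (-x) (by linarith)
    have e : (-x) ^ 4 = x ^ 4 := by ring
    rw [e] at this
    nlinarith [sq_nonneg (x ^ 2 - 60)]

lemma exp_half_le : Real.exp (1 / 2) ≤ 33 / 20 := by
  have h1 : Real.exp (1 / 2) * Real.exp (1 / 2) = Real.exp 1 := by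
    rw [← Real.exp_add]
    norm_num
  have h2 := Real.exp_one_lt_d9
  have h3 := Real.exp_pos (1 / 2)
  by_contra h
  push Not at h
  nlinarith

/-- A convexity check on an interval. -/
lemma quad_check {s m t h a b C : ℝ} (hs0 : 0 ≤ s) (hs : s ≤ t * m + h) (hab : a < b)
    (ha : a ≤ m) (hb : m ≤ b) (hfa : (t * a + h) ^ 2 ≤ C * a) (hfb : (t * b + h) ^ 2 ≤ C * b) :
    s ^ 2 ≤ C * m := by
  have h1 : s ^ 2 ≤ (t * m + h) ^ 2 := pow_le_pow_left₀ hs0 hs 2
  refine h1.trans ?_
  have key : (b - a) * ((t * m + h) ^ 2 - C * m) =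
      (b - m) * ((t * a + h) ^ 2 - C * a) + (m - a) * ((t * b + h) ^ 2 - C * b)
        - t ^ 2 * ((b - a) * ((m - a) * (b - m))) := by ring
  have h2 : (b - m) * ((t * a + h) ^ 2 - C * a) ≤ 0 :=
    mul_nonpos_of_nonneg_of_nonpos (by linarith) (by linarith)
  have h3 : (m - a) * ((t * b + h) ^ 2 - C * b) ≤ 0 :=
    mul_nonpos_of_nonneg_of_nonpos (by linarith) (by linarith)
  have h4 : 0 ≤ t ^ 2 * ((b - a) * ((m - a) * (b - m))) := by
    have h5 : 0 ≤ b - a := by linarith
    have h6 : 0 ≤ m - a := by linarith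
    have h7 : 0 ≤ b - m := by linarith
    positivity
  have h5 : (b - a) * ((t * m + h) ^ 2 - C * m) ≤ 0 := by
    rw [key]
    linarith
  have h6 : (t * m + h) ^ 2 - C * m ≤ 0 := by
    by_contra hc
    push Not at hc
    have := mul_pos (by linarith : 0 < b - a) hc
    linarith
  linarith

/-- The numerical heart: two kinds of estimate for the moment `s` of a cell of mass `m` give
`s² ≤ (81/200) m`. -/
lemma numeric {s m X : ℝ} (hs0 : 0 ≤ s) (hm0 : 0 ≤ m) (hm1 : m ≤ 1)
    (hb : ∀ t : ℝ, 0 ≤ t → s ≤ t * m + hb t) (hCS : s ^ 2 ≤ m * X) (hX : X ≤ 31 * m + 13 / 50) :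
    s ^ 2 ≤ (81 / 200) * m := by
  by_cases h1 : m ≤ 467 / 100000
  · have : X ≤ 81 / 200 := by
      have : 31 * m ≤ 31 * (467 / 100000) := by linarith
      norm_num at this ⊢
      linarith
    have h2 := mul_le_mul_of_nonneg_left this hm0
    linarith
  push Not at h1
  by_cases h2 : m ≤ 3 / 25
  · refine quad_check hs0 (hb (3 / 2) (by norm_num)) (a := 467 / 100000) (b := 3 / 25)
      (by norm_num) h1.le h2 ?_ ?_ <;> unfold Vale.Agent.Results.P226.GaussianBathtub.hb <;> norm_num
  push Not at h2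
  by_cases h3 : m ≤ 1 / 5
  · refine quad_check hs0 (hb 1 (by norm_num)) (a := 3 / 25) (b := 1 / 5)
      (by norm_num) h2.le h3 ?_ ?_ <;> unfold Vale.Agent.Results.P226.GaussianBathtub.hb <;> norm_num
  push Not at h3
  by_cases h4 : m ≤ 47 / 200
  · refine quad_check hs0 (hb (4 / 5) (by norm_num)) (a := 1 / 5) (b := 47 / 200)
      (by norm_num) h3.le h4 ?_ ?_ <;> unfold Vale.Agent.Results.P226.GaussianBathtub.hb <;> norm_num
  push Not at h4
  by_cases h5 : m ≤ 509 / 2000
  · refine quad_check hs0 (hb (7 / 10) (by norm_num)) (a := 47 / 200) (b := 509 / 2000)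
      (by norm_num) h4.le h5 ?_ ?_ <;> unfold Vale.Agent.Results.P226.GaussianBathtub.hb <;> norm_num
  push Not at h5
  by_cases h6 : m ≤ 271 / 1000
  · refine quad_check hs0 (hb (31 / 50) (by norm_num)) (a := 509 / 2000) (b := 271 / 1000)
      (by norm_num) h5.le h6 ?_ ?_ <;> unfold Vale.Agent.Results.P226.GaussianBathtub.hb <;> norm_num
  push Not at h6
  by_cases h7 : m ≤ 29 / 100
  · refine quad_check hs0 (hb (3 / 5) (by norm_num)) (a := 271 / 1000) (b := 29 / 100)
      (by norm_num) h6.le h7 ?_ ?_ <;> unfold Vale.Agent.Results.P226.GaussianBathtub.hb <;> norm_num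
  push Not at h7
  by_cases h8 : m ≤ 13 / 40
  · refine quad_check hs0 (hb (29 / 50) (by norm_num)) (a := 29 / 100) (b := 13 / 40)
      (by norm_num) h7.le h8 ?_ ?_ <;> unfold Vale.Agent.Results.P226.GaussianBathtub.hb <;> norm_num
  push Not at h8
  refine quad_check hs0 (hb (2 / 5) (by norm_num)) (a := 13 / 40) (b := 1)
    (by norm_num) h8.le hm1 ?_ ?_ <;> unfold Vale.Agent.Results.P226.GaussianBathtub.hb <;> norm_num

variable {E : Type*} [NormedAddCommGroup E] [InnerProductSpace ℝ E] [FiniteDimensional ℝ E]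
  [MeasurableSpace E] [BorelSpace E]

lemma map_innerSL (u : E) (hu : ‖u‖ = 1) :
    (stdGaussian E).map (innerSL ℝ u) = gaussianReal 0 1 := by
  have h := IsGaussian.map_eq_gaussianReal (μ := stdGaussian E) (innerSL ℝ u)
  rw [integral_strongDual_stdGaussian, variance_dual_stdGaussian, innerSL_apply_norm, hu] at h
  simpa using h

/-- The estimate for one cell. -/
lemma cell_bound (A : Set E) (hA : MeasurableSet A) :
    ‖∫ x in A, x ∂(stdGaussian E)‖ ^ 2 ≤ (81 / 200) * (stdGaussian E).real A := by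
  set μ := stdGaussian E with hμ
  set z := ∫ x in A, x ∂μ with hz
  have hm0 : 0 ≤ μ.real A := measureReal_nonneg
  by_cases hz0 : z = 0
  · rw [hz0]
    simp only [norm_zero]
    norm_num
  have hspos : 0 < ‖z‖ := norm_pos_iff.mpr hz0
  set u : E := ‖z‖⁻¹ • z with hu
  have hu1 : ‖u‖ = 1 := by
    rw [hu, norm_smul, norm_inv, norm_norm]
    exact inv_mul_cancel₀ hspos.ne'
  set L : StrongDual ℝ E := innerSL ℝ u with hL
  have hlaw : μ.map L = gaussianReal 0 1 := map_innerSL u hu1
  have hLm : Measurable L := L.continuous.measurable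
  have hint : ∀ {ψ : ℝ → ℝ}, Integrable ψ (gaussianReal 0 1) → Integrable (fun x => ψ (L x)) μ := by
    intro ψ hψ
    rw [← hlaw] at hψ
    exact (integrable_map_measure hψ.aestronglyMeasurable hLm.aemeasurable).mp hψ
  have hintg : ∀ {ψ : ℝ → ℝ}, Measurable ψ →
      ∫ x, ψ (L x) ∂μ = ∫ y, ψ y ∂(gaussianReal 0 1) := by
    intro ψ hψ
    rw [← hlaw, integral_map hLm.aemeasurable hψ.aestronglyMeasurable]
  have hs : ∫ x in A, L x ∂μ = ‖z‖ := by
    have h1 : Integrable (fun x : E => x) (μ.restrict A) :=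
      (IsGaussian.integrable_id (μ := μ)).integrableOn
    rw [L.integral_comp_comm h1, hL, ← hz, innerSL_apply_apply, hu, real_inner_smul_left,
      real_inner_self_eq_norm_sq]
    field_simp
  -- the integrability of `L` and its square
  have hgL : Integrable (fun x => L x) μ := IsGaussian.integrable_dual μ L
  have hL2 : Integrable (fun x => L x ^ 2) μ := by
    have : Integrable (fun y : ℝ => y ^ 2) (gaussianReal 0 1) := by
      have := (memLp_id_gaussianReal (μ := 0) (v := 1) 2).integrable_sq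
      exact this
    exact hint this
  have hm1 : μ.real A ≤ 1 := measureReal_le_one
  -- the threshold estimates
  have hb : ∀ t : ℝ, 0 ≤ t → ‖z‖ ≤ t * μ.real A + hb t := by
    intro t ht
    have hpt : Integrable (fun x => pt t (L x)) μ := hint (integrable_pt t)
    have h1 : ∫ x in A, L x ∂μ ≤ ∫ x in A, (t + pt t (L x)) ∂μ := by
      apply setIntegral_mono hgL.integrableOn ((integrable_const t).add hpt).integrableOn
      intro x
      have : L x - t ≤ pt t (L x) := le_max_left _ _
      simp only [Pi.add_apply]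
      linarith
    have h2 : ∫ x in A, (t + pt t (L x)) ∂μ = t * μ.real A + ∫ x in A, pt t (L x) ∂μ := by
      rw [integral_add (integrable_const t).integrableOn hpt.integrableOn, setIntegral_const,
        smul_eq_mul]
      ring
    have h3 : ∫ x in A, pt t (L x) ∂μ ≤ ∫ x, pt t (L x) ∂μ :=
      setIntegral_le_integral hpt (ae_of_all _ (fun x => le_max_right _ _))
    have h4 : ∫ x, pt t (L x) ∂μ = ∫ y, pt t y ∂(gaussianReal 0 1) := hintg (measurable_pt t)
    have h5 := integral_pt_le t ht
    rw [hs] at h1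
    rw [h4] at h3
    linarith
  -- the small mass estimate
  set X := ∫ x in A, L x ^ 2 ∂μ with hXdef
  have hCS : ‖z‖ ^ 2 ≤ μ.real A * X := by
    have h1 : ∀ c : ℝ, 0 ≤ X - 2 * c * ‖z‖ + c ^ 2 * μ.real A := by
      intro c
      have h2 : 0 ≤ ∫ x in A, (L x - c) ^ 2 ∂μ := integral_nonneg (fun x => sq_nonneg _)
      have h3 : ∫ x in A, (L x - c) ^ 2 ∂μ = X - 2 * c * ‖z‖ + c ^ 2 * μ.real A := by
        have e : ∀ x, (L x - c) ^ 2 = L x ^ 2 - 2 * c * L x + c ^ 2 := by
          intro x
          ring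
        simp_rw [e]
        have hI1 : IntegrableOn (fun x => L x ^ 2 - 2 * c * L x) A μ :=
          hL2.integrableOn.sub (hgL.integrableOn.const_mul _)
        rw [integral_add hI1 (integrable_const _).integrableOn, integral_sub hL2.integrableOn
          (hgL.integrableOn.const_mul _), integral_const_mul, hs, setIntegral_const, smul_eq_mul]
        ring
      rw [← h3]
      exact h2
    by_cases hm : μ.real A = 0
    · have h4 := h1 (‖z‖ ^ 1 * (X + 1) / (2 * ‖z‖ ^ 2))
      have : X - 2 * (‖z‖ ^ 1 * (X + 1) / (2 * ‖z‖ ^ 2)) * ‖z‖ = -1 := by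
        field_simp
        ring
      rw [hm] at h4
      rw [this] at h4
      norm_num at h4
    · have hmpos : 0 < μ.real A := lt_of_le_of_ne hm0 (Ne.symm hm)
      have h4 := h1 (‖z‖ / μ.real A)
      have : X - 2 * (‖z‖ / μ.real A) * ‖z‖ + (‖z‖ / μ.real A) ^ 2 * μ.real A =
          X - ‖z‖ ^ 2 / μ.real A := by
        field_simp
        ring
      rw [this] at h4
      have h5 : ‖z‖ ^ 2 / μ.real A ≤ X := by linarith
      rw [div_le_iff₀ hmpos] at h5
      linarith
  have hX : X ≤ 31 * μ.real A + 13 / 50 := by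
    have hp : Integrable (fun y : ℝ => Real.exp (1 * y)) (gaussianReal 0 1) :=
      integrable_exp_mul_gaussianReal 1
    have hn : Integrable (fun y : ℝ => Real.exp ((-1) * y)) (gaussianReal 0 1) :=
      integrable_exp_mul_gaussianReal (-1)
    have hp' := hint hp
    have hn' := hint hn
    have hW : Integrable (fun x => (1 / 5) * (Real.exp (1 * L x) + Real.exp ((-1) * L x) - 2)) μ :=
      ((hp'.add hn').sub (integrable_const 2)).const_mul _
    have hW0 : ∀ x, 0 ≤ (1 / 5) * (Real.exp (1 * L x) + Real.exp ((-1) * L x) - 2) := by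
      intro x
      have h1 : 2 ≤ Real.exp (1 * L x) + Real.exp ((-1) * L x) := by
        have h2 := Real.add_one_le_exp (L x)
        have h3 := Real.add_one_le_exp (-(L x))
        simp only [one_mul, neg_mul]
        linarith
      linarith
    have h1 : X ≤ ∫ x in A, (31 + (1 / 5) * (Real.exp (1 * L x) + Real.exp ((-1) * L x) - 2)) ∂μ := by
      apply setIntegral_mono hL2.integrableOn ((integrable_const 31).add hW).integrableOn
      intro x
      have := sq_le_exp (L x)
      simp only [one_mul, neg_mul]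
      exact this
    have h2 : ∫ x in A, (31 + (1 / 5) * (Real.exp (1 * L x) + Real.exp ((-1) * L x) - 2)) ∂μ =
        31 * μ.real A + ∫ x in A, (1 / 5) * (Real.exp (1 * L x) + Real.exp ((-1) * L x) - 2) ∂μ := by
      rw [integral_add (integrable_const 31).integrableOn hW.integrableOn, setIntegral_const,
        smul_eq_mul]
      ring
    have h3 : ∫ x in A, (1 / 5) * (Real.exp (1 * L x) + Real.exp ((-1) * L x) - 2) ∂μ ≤
        ∫ x, (1 / 5) * (Real.exp (1 * L x) + Real.exp ((-1) * L x) - 2) ∂μ :=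
      setIntegral_le_integral hW (ae_of_all _ hW0)
    have h4 : ∫ x, (1 / 5) * (Real.exp (1 * L x) + Real.exp ((-1) * L x) - 2) ∂μ =
        (1 / 5) * (2 * Real.exp (1 / 2) - 2) := by
      have e1 : ∫ x, Real.exp (1 * L x) ∂μ = Real.exp (1 / 2) := by
        rw [hintg (ψ := fun y => Real.exp (1 * y)) (by fun_prop)]
        have := congrFun (mgf_id_gaussianReal (μ := 0) (v := 1)) 1
        simp only [mgf, id] at this
        rw [this]
        norm_num
      have e2 : ∫ x, Real.exp ((-1) * L x) ∂μ = Real.exp (1 / 2) := by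
        rw [hintg (ψ := fun y => Real.exp ((-1) * y)) (by fun_prop)]
        have := congrFun (mgf_id_gaussianReal (μ := 0) (v := 1)) (-1)
        simp only [mgf, id] at this
        rw [this]
        norm_num
      have hpn : Integrable (fun x => Real.exp (1 * L x) + Real.exp ((-1) * L x)) μ := hp'.add hn'
      rw [integral_const_mul, integral_sub hpn (integrable_const 2),
        integral_add hp' hn', e1, e2]
      simp
      ring
    have h5 := exp_half_le
    rw [h2] at h1
    rw [h4] at h3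
    linarith
  exact numeric (norm_nonneg z) hm0 hm1 hb hCS hX

/-- **A universal bound for the Gaussian propeller functional.** Let `E` be a finite dimensional
real inner product space with its standard Gaussian measure and let `A i`, `i : Fin k`, be pairwise
disjoint measurable sets, for instance a measurable partition of `E`. Then the sum of the squared
norms of the first moments `∫_{A i} x dγ(x)` is at most `81 / 200 = 0.405`. -/
theorem result {E : Type*} [NormedAddCommGroup E] [InnerProductSpace ℝ E] [FiniteDimensional ℝ E]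
    [MeasurableSpace E] [BorelSpace E] {k : ℕ} (A : Fin k → Set E)
    (hA : ∀ i, MeasurableSet (A i)) (hd : Pairwise (Function.onFun Disjoint A)) :
    ∑ i, ‖∫ x in A i, x ∂(stdGaussian E)‖ ^ 2 ≤ 81 / 200 := by
  have h1 : ∑ i, ‖∫ x in A i, x ∂(stdGaussian E)‖ ^ 2 ≤
      ∑ i, (81 / 200) * (stdGaussian E).real (A i) :=
    Finset.sum_le_sum (fun i _ => cell_bound (A i) (hA i))
  refine h1.trans ?_
  rw [← Finset.mul_sum]
  have h2 : ∑ i, (stdGaussian E).real (A i) = (stdGaussian E).real (⋃ i, A i) := by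
    have := measureReal_biUnion_finset (μ := stdGaussian E) (s := Finset.univ) (f := A)
      (fun i _ j _ hij => hd hij) (fun i _ => hA i)
    simpa using this.symm
  rw [h2]
  have h3 : (stdGaussian E).real (⋃ i, A i) ≤ 1 := measureReal_le_one
  linarith

end

end Vale.Agent.Results.P226.GaussianBathtub
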